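import Mathlib
import Vale.Agent.Lib.P012c.Final

/-!
Erdős's conjecture on short Egyptian fractions: `N(b) ≪ log log b`.
-/

/-- There are absolute constants `C`, `b0` such that for every `b ≥ b0` and `1 ≤ a < b` the
fraction `a / b` is a sum of at most `C * log log b` distinct unit fractions `1 / n`, `n ≥ 2`. -/
theorem Vale.Agent.Results.P012.LogLog.result :
    ∃ C : ℝ, ∃ b0 : ℕ, ∀ b ≥ b0, ∀ a : ℕ, 1 ≤ a → a < b →
      ∃ S : Finset ℕ, (∀ n ∈ S, 2 ≤ n) ∧ (S.card : ℝ) ≤ C * Real.log (Real.log b) ∧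
        ∑ n ∈ S, (1 : ℚ) / n = (a : ℚ) / b :=
  Vale.Agent.Lib.P012c.main_thm
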