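import Mathlib
import Vale.Agent.Lib.P012.Final

/-!
`N(b) ≪ log log b · log log log b` for the Egyptian fraction length function `N(b)`.
-/

/-- There are absolute constants `C`, `b₀` such that for every `b ≥ b₀` and `0 < a < b` the
fraction `a / b` is a sum of at most `C * log log b * log log log b` distinct unit fractions
with denominators at least `2`. -/
theorem Vale.Agent.Results.P012.LogLogBound.result :
    ∃ C b₀ : ℝ, 0 < C ∧ ∀ a b : ℕ, b₀ ≤ b → 0 < a → a < b →
      ∃ S : Finset ℕ, (∀ n ∈ S, 2 ≤ n) ∧
        (S.card : ℝ) ≤ C * Real.log (Real.log b) * Real.log (Real.log (Real.log b)) ∧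
        ∑ n ∈ S, (1 : ℚ) / n = a / b :=
  Vale.Agent.Lib.P012.main_thm
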