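import Vale.Agent.Lib.P012b.Egypt

/-!
Short Egyptian fractions: `N(b) ≪ (log log b)²`.

Every fraction `a / b` with `1 ≤ a < b`, `16 ≤ b` is a sum of at most `C (log log b)²` distinct
unit fractions with denominators at least two.  The proof lives in `Vale.Agent.Lib.P012b`:
a Fourier-analytic covering lemma on `ZMod q` (bilinear sums over divisors), a greedy choice of
the new primes through a multiplicative potential, and an iteration doubling the number of primes
at a cost of `O(U)` terms at level `2^U`.
-/

namespace Vale.Agent.Results.P012.LogLogSquared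

/-- For all `1 ≤ a < b` with `16 ≤ b`, `a / b` is a sum of at most `C (log log b)²` distinct unit
fractions with denominators at least two. -/
theorem result : ∃ C : ℝ, ∀ a b : ℕ, 1 ≤ a → a < b → 16 ≤ b →
    ∃ S : Finset ℕ, (∀ n ∈ S, 2 ≤ n) ∧ (S.card : ℝ) ≤ C * (Real.log (Real.log b)) ^ 2 ∧
      ∑ n ∈ S, (1 / (n : ℚ)) = (a : ℚ) / (b : ℚ) :=
  Vale.Agent.Lib.P012b.main_theorem

end Vale.Agent.Results.P012.LogLogSquared
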